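import Vale.Agent.P040.Bdl.B4

namespace Vale.Agent.Results.P040.ZarankiewiczAsymptotic

open Vale.Agent.P040

/-- The crossing number of `K_{m,n}` is at least `(5429/5760 - ε) d_m d_n` for all large `m`, `n`,
where `5429/5760 > 0.9425`; there is no restriction on the drawing. -/
theorem result (ε : ℝ) (hε : 0 < ε) : ∃ N : ℕ, ∀ m n : ℕ, N ≤ m → N ≤ n →
    ∀ D : Drawing (K m n), (5429 / 5760 - ε) * (zar m n : ℝ) ≤ D.crossings :=
  Gen.asymptotic ε hε

end Vale.Agent.Results.P040.ZarankiewiczAsymptotic
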