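import Vale.Agent.P040.Bdl.B5
import Vale.Agent.P040.Bdl.B4

namespace Vale.Agent.Results.P040.ZarankiewiczBoth

open Vale.Agent.P040

/-- For all drawings, `c(D) ≥ (5429/5760 - ε) d_m d_n` for all large `m` and `n`; for the
rectilinear, monotone, `x`-bounded and spherical geodesic drawings the minimum is exactly
`d_m d_n` for all `m` and `n`, and it is a lower bound for two-page drawings. -/
theorem result :
    (∀ ε : ℝ, 0 < ε → ∃ N : ℕ, ∀ m n : ℕ, N ≤ m → N ≤ n →
      ∀ D : Drawing (K m n), (5429 / 5760 - ε) * (zar m n : ℝ) ≤ D.crossings) ∧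
    ∀ m n : ℕ,
      IsLeast {c | ∃ D : Drawing (K m n), D.Rectilinear ∧ D.crossings = c} (zar m n) ∧
      IsLeast {c | ∃ D : Drawing (K m n), D.Monotone ∧ D.crossings = c} (zar m n) ∧
      IsLeast {c | ∃ D : Drawing (K m n), D.XBounded ∧ D.Uncrossed ∧ D.crossings = c}
        (zar m n) ∧
      IsLeast {c | ∃ D : GeodesicDrawing (K m n), D.crossings = c} (zar m n) ∧
      (∀ D : Drawing (K m n), D.TwoPage → zar m n ≤ D.crossings) :=
  ⟨fun ε hε => Gen.asymptotic ε hε, fun m n => ⟨Exact.rect_least m n, Exact.mono_least m n,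
    Exact.xBounded_least m n, Exact.sph_least m n, Exact.twoPage_ge⟩⟩

end Vale.Agent.Results.P040.ZarankiewiczBoth
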